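import Vale.Agent.P144Z.A3.Core

/-!
# Basic properties of the norm given by anticommuting matrix fields
-/

namespace Vale.Agent.P144Z

open Finset Matrix

set_option linter.unusedSectionVars false

section A3
variable {S S' : Type} [Fintype S] [DecidableEq S] [Fintype S'] [DecidableEq S']
variable {𝒞 𝒞' : Set ((S → ℝ) × ℝ)} {T T' : Set S}

theorem opn_mul {n : Type} [Fintype n] [DecidableEq n] (A B : Matrix n n ℂ) :
    opn (A * B) ≤ opn A * opn B := A3.opn_mul A B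

theorem le_nrm (h : Adm 𝒞 T) {F : Gr S} (hF : F ∈ loc T) (r : Rep S) (hr : r.In 𝒞) :
    opn (r.ev F) ≤ nrm 𝒞 T F := by
  have h1 := A3.le_nrm' h F r hr
  rwa [A3.map_res hF] at h1

theorem nrm_le (h : Adm 𝒞 T) {F : Gr S} (hF : F ∈ loc T) {c : ℝ}
    (hc : ∀ r : Rep S, r.In 𝒞 → opn (r.ev F) ≤ c) : nrm 𝒞 T F ≤ c :=
  A3.nrm_le' h fun r hr => by rw [A3.map_res hF]; exact hc r hr

theorem nrm_nonneg (F : Gr S) : 0 ≤ nrm 𝒞 T F := by
  refine Real.sSup_nonneg ?_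
  rintro _ ⟨r, -, rfl⟩
  exact A3.opn_nonneg _

theorem nrm_add (h : Adm 𝒞 T) (F G : Gr S) : nrm 𝒞 T (F + G) ≤ nrm 𝒞 T F + nrm 𝒞 T G :=
  A3.nrm_le' h fun r hr => by
    rw [map_add, map_add]
    exact (A3.opn_add _ _).trans (add_le_add (A3.le_nrm' h F r hr) (A3.le_nrm' h G r hr))

theorem A3.nrm_smul_le (h : Adm 𝒞 T) (c : ℝ) (F : Gr S) : nrm 𝒞 T (c • F) ≤ |c| * nrm 𝒞 T F :=
  A3.nrm_le' h fun r hr => by
    rw [map_smul, map_smul, A3.opn_smul]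
    exact mul_le_mul_of_nonneg_left (A3.le_nrm' h F r hr) (abs_nonneg c)

theorem nrm_smul (h : Adm 𝒞 T) (c : ℝ) (F : Gr S) : nrm 𝒞 T (c • F) = |c| * nrm 𝒞 T F := by
  refine le_antisymm (A3.nrm_smul_le h c F) ?_
  rcases eq_or_ne c 0 with rfl | hc
  · rw [abs_zero, zero_mul]
    exact nrm_nonneg _
  · have h1 := A3.nrm_smul_le h c⁻¹ (c • F)
    rw [smul_smul, inv_mul_cancel₀ hc, one_smul, abs_inv] at h1
    have h2 : 0 < |c| := abs_pos.2 hc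
    refine (mul_le_mul_of_nonneg_left h1 h2.le).trans_eq ?_
    rw [← mul_assoc, mul_inv_cancel₀ h2.ne', one_mul]

theorem nrm_mul (h : Adm 𝒞 T) (F G : Gr S) : nrm 𝒞 T (F * G) ≤ nrm 𝒞 T F * nrm 𝒞 T G :=
  A3.nrm_le' h fun r hr => by
    rw [map_mul, map_mul]
    exact (A3.opn_mul _ _).trans (mul_le_mul (A3.le_nrm' h F r hr) (A3.le_nrm' h G r hr)
      (A3.opn_nonneg _) (nrm_nonneg _))

theorem nrm_one (h : Adm 𝒞 T) : nrm 𝒞 T 1 ≤ 1 :=
  A3.nrm_le' h fun r _ => by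
    rw [map_one, map_one]
    exact A3.opn_one

theorem abs_aug_le (h : Adm 𝒞 T) (F : Gr S) : |aug F| ≤ nrm 𝒞 T F := by
  have h1 := A3.le_nrm' h F (A3.zero S) (A3.zero_in h)
  rwa [A3.opn_zero_ev, A3.aug_map] at h1

/-- All Taylor coefficients are bounded by the norm. -/
theorem A3.abs_dls_le (h : Adm 𝒞 T) {F : Gr S} (hF : F ∈ loc T) {ι : Type} [Fintype ι]
    (g : ι → S → ℝ) (a : ι → ℝ) (ha : ∀ i, 0 < a i)
    (hg : ∀ p ∈ 𝒞, ∑ i, a i * |p.1 ⬝ᵥ g i| ≤ p.2) (l : List ι) :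
    (l.map a).prod * |aug (CAR.dls (l.map fun i => pair (g i)) F)| ≤ nrm 𝒞 T F := by
  obtain ⟨r, h1, h2⟩ := A3.exists_rep_dls g a ha l (A3.zero S)
  have h3 := h2 F
  rw [A3.opn_zero_ev] at h3
  refine h3.trans (le_nrm h hF r fun p hp => (h1 _).trans ?_)
  rw [A3.opn_zero, zero_add]
  exact hg p hp

theorem nrm_def (h : Adm 𝒞 T) {F : Gr S} (hF : F ∈ loc T) (h0 : nrm 𝒞 T F = 0) : F = 0 := by
  obtain ⟨ε, hε, h2⟩ := h.abs
  have hc : (0 : ℝ) < Fintype.card S + 1 := by positivity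
  refine CAR.eq_zero_of_coeff (Pi.basisFun ℝ S) F fun l => ?_
  have h3 := A3.abs_dls_le h hF (fun s => Pi.single s 1) (fun _ => ε / (Fintype.card S + 1))
    (fun _ => div_pos hε hc) (fun p hp => by
      refine le_trans ?_ (h2 p hp)
      refine (Finset.sum_le_card_nsmul _ _ (ε / (Fintype.card S + 1) * ‖p.1‖) fun s _ => ?_).trans
        ?_
      · rw [dotProduct_single, mul_one]
        exact mul_le_mul_of_nonneg_left (norm_le_pi_norm p.1 s) (div_pos hε hc).le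
      · rw [nsmul_eq_mul, Finset.card_univ, ← mul_assoc]
        refine mul_le_mul_of_nonneg_right ?_ (norm_nonneg _)
        rw [← mul_div_assoc, div_le_iff₀ hc]
        nlinarith) l
  have e : (fun s : S => pair (Pi.single s (1 : ℝ))) = (Pi.basisFun ℝ S).coord := by
    funext s
    refine LinearMap.ext fun δ => ?_
    show δ ⬝ᵥ Pi.single s 1 = _
    rw [dotProduct_single, mul_one, Module.Basis.coord_apply, Pi.basisFun_repr]
  have hp : 0 < (l.map fun _ => ε / (Fintype.card S + 1)).prod := List.prod_pos fun c hc' => by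
    obtain ⟨i, -, rfl⟩ := List.mem_map.1 hc'
    exact div_pos hε hc
  rw [h0, e] at h3
  exact abs_nonpos_iff.1 (nonpos_of_mul_nonpos_right h3 hp)

theorem nrm_psi (h : Adm 𝒞 T) {δ : S → ℝ} {c : ℝ} (hδ : (δ, c) ∈ 𝒞) (hT : ∀ s ∉ T, δ s = 0) :
    nrm 𝒞 T (psi δ) ≤ c :=
  A3.nrm_le' h fun r hr => by
    have e : ExteriorAlgebra.map (res T) (psi δ) = psi δ := by
      unfold psi
      rw [ExteriorAlgebra.map_apply_ι, A3.res_eq hT]
    rw [e, A3.ev_psi]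
    exact hr (δ, c) hδ

/-- Substitution: if `f` carries the constraints `𝒞` into consequences of the constraints `𝒟`. -/
theorem nrm_map {𝒟 : Set ((S' → ℝ) × ℝ)} {U : Set S'} (h : Adm 𝒞 T) (h' : Adm 𝒟 U)
    (f : (S → ℝ) →ₗ[ℝ] (S' → ℝ)) (hf : ∀ r : Rep S', r.In 𝒟 → ∀ p ∈ 𝒞, opn (r.Ψ (f p.1)) ≤ p.2)
    {F : Gr S} (hF : F ∈ loc T) (hF' : ExteriorAlgebra.map f F ∈ loc U) :
    nrm 𝒟 U (ExteriorAlgebra.map f F) ≤ nrm 𝒞 T F :=
  nrm_le h' hF' fun r hr => by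
    rw [← A3.opn_comap_ev]
    exact le_nrm h hF _ (hf r hr)

/-- The derivative is bounded by the norm. -/
theorem nrm_del {U : Set S} (h : Adm 𝒞 T) (h' : Adm 𝒞' U) (f : (S → ℝ) →ₗ[ℝ] (S → ℝ))
    {g : S → ℝ} {a : ℝ} (ha : 0 ≤ a)
    (hf : ∀ r : Rep S, r.In 𝒞' → ∀ p ∈ 𝒞, opn (r.Ψ (f p.1)) + a * |p.1 ⬝ᵥ g| ≤ p.2)
    {F : Gr S} (hF : F ∈ loc T) (hF' : ExteriorAlgebra.map f (del g F) ∈ loc U) :
    a * nrm 𝒞' U (ExteriorAlgebra.map f (del g F)) ≤ nrm 𝒞 T F := by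
  rcases ha.eq_or_lt with rfl | ha'
  · rw [zero_mul]
    exact nrm_nonneg _
  rw [← le_div_iff₀' ha']
  refine nrm_le h' hF' fun r hr => ?_
  obtain ⟨r', h1, h2⟩ := A3.exists_rep_dls (fun _ : Unit => g) (fun _ => a) (fun _ => ha') [()]
    (A3.comap r f)
  have h3 := h2 F
  rw [List.map_singleton, List.prod_singleton, A3.opn_comap_ev] at h3
  rw [le_div_iff₀' ha']
  refine le_trans h3 (le_nrm h hF r' fun p hp => (h1 _).trans ?_)
  rw [Fintype.sum_unique]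
  exact hf r hr p hp

/-- The quadratic coefficient is bounded by the norm. -/
theorem abs_beta_le (h : Adm 𝒞 T) {F : Gr S} (hF : F ∈ loc T) {g g' : S → ℝ} {a a' : ℝ}
    (ha : 0 < a) (ha' : 0 < a') (hg : ∀ p ∈ 𝒞, a * |p.1 ⬝ᵥ g| + a' * |p.1 ⬝ᵥ g'| ≤ p.2) :
    a * a' * |beta F g g'| ≤ nrm 𝒞 T F := by
  have h1 := A3.abs_dls_le h hF ![g, g'] ![a, a'] (Fin.forall_fin_two.2 ⟨ha, ha'⟩)
    (fun p hp => by rw [Fin.sum_univ_two]; exact hg p hp) [0, 1]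
  have e : (List.map ![a, a'] [0, 1]).prod = a * a' := by simp
  rw [e] at h1
  exact h1

/-- The same for the coefficient of degree four. -/
theorem abs_beta4_le (h : Adm 𝒞 T) {F : Gr S} (hF : F ∈ loc T) {g : Fin 4 → S → ℝ} {a : Fin 4 → ℝ}
    (ha : ∀ i, 0 < a i) (hg : ∀ p ∈ 𝒞, ∑ i, a i * |p.1 ⬝ᵥ g i| ≤ p.2) :
    (∏ i, a i) * |beta (del (g 1) (del (g 0) F)) (g 2) (g 3)| ≤ nrm 𝒞 T F := by
  have h1 := A3.abs_dls_le h hF g a ha hg [0, 1, 2, 3]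
  have e : (List.map a [0, 1, 2, 3]).prod = ∏ i, a i := by
    simp [Fin.prod_univ_four, mul_assoc]
  rw [e] at h1
  exact h1
end A3

end Vale.Agent.P144Z
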