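import Vale.Agent.P144Z.Gr
import Vale.Agent.P144Z.CAR.Norm

/-!
# Extension of a matrix field by fermionic modes: derivatives and Gaussian convolution
-/

namespace Vale.Agent.P144Z.A3

open Matrix
open scoped Matrix.Norms.L2Operator

set_option linter.unusedSectionVars false

theorem opn_eq {n : Type} [Fintype n] [DecidableEq n] (A : Matrix n n ℂ) : opn A = ‖A‖ := rfl

theorem opn_nonneg {n : Type} [Fintype n] [DecidableEq n] (A : Matrix n n ℂ) : 0 ≤ opn A :=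
  norm_nonneg A

theorem opn_mul {n : Type} [Fintype n] [DecidableEq n] (A B : Matrix n n ℂ) :
    opn (A * B) ≤ opn A * opn B := norm_mul_le A B

theorem opn_add {n : Type} [Fintype n] [DecidableEq n] (A B : Matrix n n ℂ) :
    opn (A + B) ≤ opn A + opn B := norm_add_le A B

theorem opn_sub {n : Type} [Fintype n] [DecidableEq n] (A B : Matrix n n ℂ) :
    opn (A - B) ≤ opn A + opn B := norm_sub_le A B

theorem opn_neg {n : Type} [Fintype n] [DecidableEq n] (A : Matrix n n ℂ) :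
    opn (-A) = opn A := norm_neg A

theorem opn_sum {n ι : Type} [Fintype n] [DecidableEq n] (s : Finset ι) (A : ι → Matrix n n ℂ) :
    opn (∑ i ∈ s, A i) ≤ ∑ i ∈ s, opn (A i) := norm_sum_le s A

theorem opn_one {n : Type} [Fintype n] [DecidableEq n] : opn (1 : Matrix n n ℂ) ≤ 1 :=
  CAR.norm_one_le

section Fld

variable {R V : Type} [CommRing R] [Algebra R ℂ] [AddCommGroup V] [Module R V]

/-- every field has an extension which dominates derivatives of Gaussian convolutions -/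
theorem exists_ext {ι : Type} [Fintype ι] (C : LinearMap.BilinForm R V) (hC : ∀ v, C v v = 0)
    (f g : V →ₗ[R] ι → ℂ) (hfg : ∀ v w, algebraMap R ℂ (C v w) = ∑ i, g v i * f w i)
    (l : List (Module.Dual R V × (ι → ℂ)))
    (hl : ∀ p ∈ l, ∀ w, algebraMap R ℂ (p.1 w) = ∑ i, p.2 i * f w i) (Φ : CAR.Fld R V) :
    ∃ Ψ : CAR.Fld R V, (∀ v, ‖Ψ.φ v‖ ≤ ‖Φ.φ v‖ + (CAR.l2 (f v) + CAR.l2 (g v))) ∧
      ∀ x, ‖Φ.ev (CAR.dls (l.map Prod.fst) (CAR.gauss C hC x))‖ ≤
        (l.map fun p => CAR.l2 p.2).prod * ‖Ψ.ev x‖ := by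
  have hp : ∀ l : List (Module.Dual R V × (ι → ℂ)), 0 ≤ (l.map fun p => CAR.l2 p.2).prod :=
    fun l => List.prod_nonneg fun c hc => by
      obtain ⟨p, -, rfl⟩ := List.mem_map.1 hc
      exact CAR.l2_nonneg _
  obtain ⟨m, _, _, Ψ, hΨ, E, A, h1, h2, h3, h4, h5, -, h7⟩ :=
    CAR.exists_gauss_ext C hC f g hfg Φ.φ Φ.sq
  have key : ∃ T : Matrix m m ℂ, ‖T‖ ≤ (l.map fun p => CAR.l2 p.2).prod ∧
      ∀ y, E (T * ExteriorAlgebra.lift R ⟨Ψ, hΨ⟩ y) =
        E (ExteriorAlgebra.lift R ⟨Ψ, hΨ⟩ (CAR.dls (l.map Prod.fst) y)) := by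
    induction l with
    | nil => exact ⟨1, CAR.norm_one_le, fun y => by rw [one_mul]; rfl⟩
    | cons p l ih =>
      obtain ⟨T, hT, hT'⟩ := ih fun q hq => hl q (List.mem_cons_of_mem _ hq)
      refine ⟨T * A p.2, ?_, fun y => ?_⟩
      · rw [List.map_cons, List.prod_cons, mul_comm (CAR.l2 p.2)]
        exact (norm_mul_le _ _).trans (mul_le_mul hT (h4 _) (norm_nonneg _) (hp l))
      · have hb : ∀ w, A p.2 * Ψ w + Ψ w * A p.2 = algebraMap R _ (p.1 w) := by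
          intro w
          rw [h7, ← hl p List.mem_cons_self w, algebraMap_smul, Algebra.algebraMap_eq_smul_one]
        rw [mul_assoc, CAR.anti_lift Ψ hΨ _ p.1 hb, mul_add, map_add, ← mul_assoc, h5, zero_add,
          hT', List.map_cons, CAR.dls_cons]
  obtain ⟨T, hT, hT'⟩ := key
  refine ⟨⟨m, Ψ, hΨ⟩, h1, fun x => ?_⟩
  have e : Φ.ev (CAR.dls (l.map Prod.fst) (CAR.gauss C hC x)) =
      E (T * ExteriorAlgebra.lift R ⟨Ψ, hΨ⟩ x) := by
    rw [hT', ← h3, CAR.gauss_dls]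
    rfl
  rw [e]
  exact (h2 _).trans ((norm_mul_le _ _).trans
    (mul_le_mul_of_nonneg_right hT (norm_nonneg _)))

theorem exists_ext_dls {ι : Type} [Fintype ι] (f : V →ₗ[R] ι → ℂ)
    (l : List (Module.Dual R V × (ι → ℂ)))
    (hl : ∀ p ∈ l, ∀ w, algebraMap R ℂ (p.1 w) = ∑ i, p.2 i * f w i) (Φ : CAR.Fld R V) :
    ∃ Ψ : CAR.Fld R V, (∀ v, ‖Ψ.φ v‖ ≤ ‖Φ.φ v‖ + CAR.l2 (f v)) ∧
      ∀ x, ‖Φ.ev (CAR.dls (l.map Prod.fst) x)‖ ≤ (l.map fun p => CAR.l2 p.2).prod * ‖Ψ.ev x‖ := by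
  obtain ⟨Ψ, h1, h2⟩ := exists_ext 0 (fun _ => rfl) f 0 (fun v w => by simp) l hl Φ
  refine ⟨Ψ, fun v => ?_, fun x => ?_⟩
  · have := h1 v
    rwa [LinearMap.zero_apply, CAR.l2_zero, add_zero] at this
  · have := h2 x
    rwa [CAR.gauss_zero] at this

theorem exists_ext_gauss {ι : Type} [Fintype ι] (C : LinearMap.BilinForm R V) (hC : ∀ v, C v v = 0)
    (f g : V →ₗ[R] ι → ℂ) (hfg : ∀ v w, algebraMap R ℂ (C v w) = ∑ i, g v i * f w i)
    (Φ : CAR.Fld R V) :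
    ∃ Ψ : CAR.Fld R V, (∀ v, ‖Ψ.φ v‖ ≤ ‖Φ.φ v‖ + (CAR.l2 (f v) + CAR.l2 (g v))) ∧
      ∀ x, ‖Φ.ev (CAR.gauss C hC x)‖ ≤ ‖Ψ.ev x‖ := by
  obtain ⟨Ψ, h1, h2⟩ := exists_ext C hC f g hfg [] (fun _ hp => absurd hp List.not_mem_nil) Φ
  refine ⟨Ψ, h1, fun x => ?_⟩
  have := h2 x
  rwa [List.map_nil, List.map_nil, List.prod_nil, one_mul, CAR.dls_nil] at this

end Fld

theorem l2_le_sum {ι : Type} [Fintype ι] (γ : ι → ℂ) : CAR.l2 γ ≤ ∑ i, ‖γ i‖ := by
  unfold CAR.l2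
  refine Real.sqrt_le_iff.2 ⟨Finset.sum_nonneg fun i _ => norm_nonneg _, ?_⟩
  exact Finset.sum_sq_le_sq_sum_of_nonneg fun i _ => norm_nonneg _

theorem l2_single {ι : Type} [Fintype ι] [DecidableEq ι] (i : ι) (z : ℂ) :
    CAR.l2 (Pi.single i z : ι → ℂ) = ‖z‖ := by
  unfold CAR.l2
  rw [Finset.sum_eq_single i, Pi.single_eq_same, Real.sqrt_sq (norm_nonneg _)]
  · intro j _ hj
    rw [Pi.single_eq_of_ne hj, norm_zero, zero_pow two_ne_zero]
  · intro hi
    exact absurd (Finset.mem_univ i) hi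

variable {S S' : Type} [Fintype S] [DecidableEq S] [Fintype S'] [DecidableEq S']

/-- a field of the definitions file as a field of the toolkit -/
def toFld (r : Rep S) : CAR.Fld ℝ (S → ℝ) := ⟨r.n, r.Ψ, r.sq⟩

/-- the converse -/
def ofFld (Φ : CAR.Fld ℝ (S → ℝ)) : Rep S := ⟨Φ.n, Φ.φ, Φ.sq⟩

/-- the pull back of a field -/
noncomputable def comap (r : Rep S') (f : (S → ℝ) →ₗ[ℝ] (S' → ℝ)) : Rep S := ofFld ((toFld r).comap f)

theorem opn_comap_ev (r : Rep S') (f : (S → ℝ) →ₗ[ℝ] (S' → ℝ)) (F : Gr S) :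
    opn ((comap r f).ev F) = opn (r.ev (ExteriorAlgebra.map f F)) :=
  congrArg (opn (n := r.n)) (CAR.Fld.comap_ev (toFld r) f F)

theorem opn_comap (r : Rep S') (f : (S → ℝ) →ₗ[ℝ] (S' → ℝ)) (δ : S → ℝ) :
    opn ((comap r f).Ψ δ) = opn (r.Ψ (f δ)) := rfl

/-- the zero field -/
noncomputable def zero (S : Type) : Rep S := ⟨Unit, 0, fun _ => zero_mul _⟩

theorem opn_zero (δ : S → ℝ) : opn ((zero S).Ψ δ) = 0 :=
  (norm_zero : ‖(0 : Matrix Unit Unit ℂ)‖ = 0)

theorem opn_zero_ev (F : Gr S) : opn ((zero S).ev F) = |aug F| := by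
  have h := CAR.norm_zero_ev (R := ℝ) F
  rw [Complex.coe_algebraMap, Complex.norm_real, Real.norm_eq_abs] at h
  exact h

theorem ev_psi (r : Rep S) (δ : S → ℝ) : r.ev (psi δ) = r.Ψ δ :=
  ExteriorAlgebra.lift_ι_apply ℝ _ _ δ

theorem opn_smul {n : Type} [Fintype n] [DecidableEq n] (c : ℝ) (A : Matrix n n ℂ) :
    opn (c • A) = |c| * opn A := by
  have h := CAR.norm_smul_mat c A
  rw [Complex.coe_algebraMap, Complex.norm_real, Real.norm_eq_abs] at h
  exact h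

/-- iterated derivatives in directions `g i`, at the price of fields of size `a i` -/
theorem exists_rep_dls {ι : Type} [Fintype ι] (g : ι → S → ℝ) (a : ι → ℝ) (ha : ∀ i, 0 < a i)
    (l : List ι) (r : Rep S) :
    ∃ r' : Rep S, (∀ δ, opn (r'.Ψ δ) ≤ opn (r.Ψ δ) + ∑ i, a i * |δ ⬝ᵥ g i|) ∧
      ∀ F, (l.map a).prod * opn (r.ev (CAR.dls (l.map fun i => pair (g i)) F)) ≤
        opn (r'.ev F) := by
  classical
  let f : (S → ℝ) →ₗ[ℝ] ι → ℂ := LinearMap.pi fun i =>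
    (a i : ℂ) • (Algebra.linearMap ℝ ℂ).comp (pair (g i))
  have hf : ∀ v i, f v i = a i * ((v ⬝ᵥ g i : ℝ) : ℂ) := fun _ _ => rfl
  obtain ⟨Ψ, h1, h2⟩ := exists_ext_dls f
    (l.map fun i => (pair (g i), Pi.single i (a i : ℂ)⁻¹)) (fun p hp w => by
      obtain ⟨i, -, rfl⟩ := List.mem_map.1 hp
      have hne : (a i : ℂ) ≠ 0 := by exact_mod_cast (ha i).ne'
      dsimp only
      rw [Finset.sum_eq_single i]
      · rw [hf, Pi.single_eq_same, ← mul_assoc, inv_mul_cancel₀ hne, one_mul]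
        rfl
      · intro j _ hj
        rw [Pi.single_eq_of_ne hj, zero_mul]
      · intro hi
        exact absurd (Finset.mem_univ i) hi) (toFld r)
  refine ⟨ofFld Ψ, fun δ => (h1 δ).trans (add_le_add le_rfl ((l2_le_sum _).trans_eq ?_)),
    fun F => ?_⟩
  · refine Finset.sum_congr rfl fun i _ => ?_
    rw [hf, norm_mul, Complex.norm_real, Complex.norm_real, Real.norm_of_nonneg (ha i).le,
      Real.norm_eq_abs]
  · have h3 := h2 F
    rw [List.map_map, List.map_map] at h3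
    have e : ∀ l : List ι, (l.map a).prod * (l.map ((fun p : Module.Dual ℝ (S → ℝ) × (ι → ℂ) =>
        CAR.l2 p.2) ∘ fun i => (pair (g i), Pi.single i (a i : ℂ)⁻¹))).prod = 1 := by
      intro l
      induction l with
      | nil => simp
      | cons i l ih =>
        rw [List.map_cons, List.map_cons, List.prod_cons, List.prod_cons, mul_mul_mul_comm, ih,
          mul_one, Function.comp_apply, l2_single, norm_inv, Complex.norm_real,
          Real.norm_of_nonneg (ha i).le, mul_inv_cancel₀ (ha i).ne']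
    have hp : 0 ≤ (l.map a).prod := List.prod_nonneg fun c hc => by
      obtain ⟨i, -, rfl⟩ := List.mem_map.1 hc
      exact (ha i).le
    refine (mul_le_mul_of_nonneg_left h3 hp).trans_eq ?_
    rw [← mul_assoc, e, one_mul]
    rfl

theorem map_res {T : Set S} {F : Gr S} (hF : F ∈ loc T) : ExteriorAlgebra.map (res T) F = F := by
  induction hF using Algebra.adjoin_induction with
  | mem x hx =>
    obtain ⟨s, hs, rfl⟩ := hx
    have e : res T (Pi.single s 1) = Pi.single s 1 := by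
      funext t
      show (open Classical in if t ∈ T then (Pi.single s 1 : S → ℝ) t else 0) = _
      split_ifs with ht
      · rfl
      · rw [Pi.single_eq_of_ne]
        rintro rfl
        exact ht hs
    unfold gen psi
    rw [ExteriorAlgebra.map_apply_ι, e]
  | algebraMap r => exact AlgHom.commutes _ r
  | add x y _ _ hx hy => rw [map_add, hx, hy]
  | mul x y _ _ hx hy => rw [map_mul, hx, hy]

theorem res_eq {T : Set S} {δ : S → ℝ} (h : ∀ s ∉ T, δ s = 0) : res T δ = δ := by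
  funext t
  show (open Classical in if t ∈ T then δ t else 0) = _
  split_ifs with ht
  · rfl
  · exact (h t ht).symm

theorem aug_map (f : (S → ℝ) →ₗ[ℝ] (S' → ℝ)) (F : Gr S) :
    aug (ExteriorAlgebra.map f F) = aug F := by
  have : (aug (S := S')).comp (ExteriorAlgebra.map f) = aug := by
    refine ExteriorAlgebra.hom_ext (LinearMap.ext fun v => ?_)
    show aug (ExteriorAlgebra.map f (ExteriorAlgebra.ι ℝ v)) = aug (ExteriorAlgebra.ι ℝ v)
    rw [ExteriorAlgebra.map_apply_ι]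
    unfold aug ExteriorAlgebra.algebraMapInv
    rw [ExteriorAlgebra.lift_ι_apply, ExteriorAlgebra.lift_ι_apply]
    rfl
  exact AlgHom.congr_fun this F

variable {𝒞 : Set ((S → ℝ) × ℝ)} {T : Set S}

theorem zero_in (h : Adm 𝒞 T) : (zero S).In 𝒞 := by
  intro p hp
  obtain ⟨ε, hε, h2⟩ := h.abs
  rw [opn_zero]
  exact (mul_nonneg hε.le (norm_nonneg _)).trans (h2 p hp)

theorem exists_bound_vec (h : Adm 𝒞 T) (δ : S → ℝ) :
    ∃ c : ℝ, 0 ≤ c ∧ ∀ r : Rep S, r.In 𝒞 → opn (r.Ψ (res T δ)) ≤ c := by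
  classical
  choose! c hc using h.bdd
  refine ⟨∑ s, |δ s| * |c s|, Finset.sum_nonneg fun s _ => by positivity, fun r hr => ?_⟩
  have e : res T δ = ∑ s, res T δ s • (Pi.single s 1 : S → ℝ) := by
    funext t
    simp [Finset.sum_apply, Pi.single_apply]
  rw [e, map_sum]
  refine (opn_sum _ _).trans (Finset.sum_le_sum fun s _ => ?_)
  rw [map_smul, opn_smul]
  by_cases hs : s ∈ T
  · have e1 : res T δ s = δ s := if_pos hs
    rw [e1]
    exact mul_le_mul_of_nonneg_left ((hr _ (hc s hs)).trans (le_abs_self _)) (abs_nonneg _)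
  · have e1 : res T δ s = 0 := if_neg hs
    rw [e1, abs_zero, zero_mul]
    positivity

theorem exists_bound (h : Adm 𝒞 T) (F : Gr S) :
    ∃ c : ℝ, 0 ≤ c ∧ ∀ r : Rep S, r.In 𝒞 → opn (r.ev (ExteriorAlgebra.map (res T) F)) ≤ c := by
  induction F using ExteriorAlgebra.induction with
  | algebraMap a =>
    refine ⟨|a|, abs_nonneg _, fun r _ => ?_⟩
    rw [AlgHom.commutes, AlgHom.commutes, Algebra.algebraMap_eq_smul_one, opn_smul]
    exact mul_le_of_le_one_right (abs_nonneg _) CAR.norm_one_le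
  | ι v =>
    obtain ⟨c, hc, h1⟩ := exists_bound_vec h v
    refine ⟨c, hc, fun r hr => ?_⟩
    rw [ExteriorAlgebra.map_apply_ι]
    exact (congrArg opn (ev_psi r _)).trans_le (h1 r hr)
  | mul x y hx hy =>
    obtain ⟨c, hc, h1⟩ := hx
    obtain ⟨d, hd, h2⟩ := hy
    refine ⟨c * d, mul_nonneg hc hd, fun r hr => ?_⟩
    rw [map_mul, map_mul]
    exact (opn_mul _ _).trans (mul_le_mul (h1 r hr) (h2 r hr) (opn_nonneg _) hc)
  | add x y hx hy =>
    obtain ⟨c, hc, h1⟩ := hx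
    obtain ⟨d, hd, h2⟩ := hy
    refine ⟨c + d, add_nonneg hc hd, fun r hr => ?_⟩
    rw [map_add, map_add]
    exact (opn_add _ _).trans (add_le_add (h1 r hr) (h2 r hr))

theorem le_nrm' (h : Adm 𝒞 T) (F : Gr S) (r : Rep S) (hr : r.In 𝒞) :
    opn (r.ev (ExteriorAlgebra.map (res T) F)) ≤ nrm 𝒞 T F := by
  obtain ⟨c, -, hc⟩ := exists_bound h F
  refine le_csSup ⟨c, ?_⟩ ⟨r, hr, rfl⟩
  rintro _ ⟨r', hr', rfl⟩
  exact hc r' hr'

theorem nrm_le' (h : Adm 𝒞 T) {F : Gr S} {c : ℝ}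
    (hc : ∀ r : Rep S, r.In 𝒞 → opn (r.ev (ExteriorAlgebra.map (res T) F)) ≤ c) :
    nrm 𝒞 T F ≤ c := by
  refine csSup_le ⟨_, zero S, zero_in h, rfl⟩ ?_
  rintro _ ⟨r, hr, rfl⟩
  exact hc r hr

end Vale.Agent.P144Z.A3
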